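import Vale.Agent.P111.TK.I

/-!
Reduction of statements on homogeneous Banach spaces of vector valued functions on the Cantor
group to finite cubes.
-/

namespace Vale.Agent.P111.TV

open Finset Vale.Agent.P111 MeasureTheory TopologicalSpace Vale.Agent.P111.TK

universe v w

variable {V : Type w} [NormedAddCommGroup V] [NormedSpace ℝ V]

/-- `f` depends only on the first `D` coordinates. -/
def Dep {E : Type v} [NormedAddCommGroup E] [NormedSpace ℝ E]
    (e : E →L[ℝ] C(ℕ → ℤˣ, V)) (D : ℕ) (f : E) : Prop :=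
  ∀ x y : ℕ → ℤˣ, (∀ i < D, x i = y i) → e f x = e f y

/-- Homogeneous Banach spaces of continuous `V`-valued functions on the Cantor group. -/
structure Hom {E : Type v} [NormedAddCommGroup E] [NormedSpace ℝ E]
    (e : E →L[ℝ] C(ℕ → ℤˣ, V)) (τ : (ℕ → ℤˣ) → E → E) (B : ℝ) (c : Finset ℕ → V → E) : Prop where
  inj : Function.Injective e
  trans : ∀ g f x, e (τ g f) x = e f (x * g)
  norm : ∀ g f, ‖τ g f‖ = ‖f‖
  cont : ∀ f, Continuous fun g => τ g f
  char : ∀ S v x, e (c S v) x = (∏ i ∈ S, sg (x i)) • v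
  bdd : ∀ S v, ‖c S v‖ ≤ B * ‖v‖

section

variable {E : Type v} [NormedAddCommGroup E] [NormedSpace ℝ E]
  {e : E →L[ℝ] C(ℕ → ℤˣ, V)} {τ : (ℕ → ℤˣ) → E → E} {B : ℝ} {c : Finset ℕ → V → E}

theorem exists_proj [CompleteSpace E] (h : Hom e τ B c) (D : ℕ) :
    ∃ P : E →L[ℝ] E, (∀ f, ‖P f‖ ≤ ‖f‖) ∧ (∀ f, Dep e D (P f)) ∧ ∀ f, Dep e D f → P f = f := by
  let _ : MeasurableSpace (ℕ → ℤˣ) := borel _
  have _ : BorelSpace (ℕ → ℤˣ) := ⟨rfl⟩
  set μ : Measure (ℕ → ℤˣ) := Measure.haarMeasure ⊤ with hμ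
  have hμ1 : μ Set.univ = 1 := by
    have := Measure.haarMeasure_self (K₀ := (⊤ : PositiveCompacts (ℕ → ℤˣ)))
    simpa using this
  have _ : IsProbabilityMeasure μ := ⟨hμ1⟩
  have hadd : ∀ g f f', τ g (f + f') = τ g f + τ g f' := by
    intro g f f'
    apply h.inj
    ext x
    simp [h.trans]
  have hsmul : ∀ g (c : ℝ) f, τ g (c • f) = c • τ g f := by
    intro g c f
    apply h.inj
    ext x
    simp [h.trans]
  have hcont : ∀ f, Continuous fun g => τ (tail D g) f :=
    fun f => (h.cont f).comp (continuous_tail D)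
  have hint : ∀ f, Integrable (fun g => τ (tail D g) f) μ := fun f =>
    (hcont f).integrable_of_hasCompactSupport (HasCompactSupport.of_compactSpace _)
  have hval : ∀ (w : V →L[ℝ] ℝ) f x, w (e (∫ g, τ (tail D g) f ∂μ) x) =
      ∫ g, w (e f (x * tail D g)) ∂μ := by
    intro w f x
    let L : E →L[ℝ] ℝ := w.comp ((ContinuousMap.evalCLM ℝ x).comp e)
    have h1 := (ContinuousLinearMap.integral_comp_comm L (hint f)).symm
    refine h1.trans ?_
    refine integral_congr_ae (Filter.Eventually.of_forall fun g => ?_)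
    change w (e (τ (tail D g) f) x) = _
    rw [h.trans]
  have hsep : ∀ a b : V, (∀ w : V →L[ℝ] ℝ, w a = w b) → a = b := by
    intro a b hab
    by_contra hne
    have : a - b ≠ 0 := sub_ne_zero.mpr hne
    obtain ⟨w, _, hw⟩ := exists_dual_vector ℝ (a - b) (norm_ne_zero_iff.mpr this)
    have h2 : w (a - b) = 0 := by rw [map_sub, hab w, sub_self]
    rw [h2] at hw
    exact this (norm_eq_zero.mp (by exact_mod_cast hw.symm))
  let P : E →L[ℝ] E := LinearMap.mkContinuous
    { toFun := fun f => ∫ g, τ (tail D g) f ∂μ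
      map_add' := by
        intro f f'
        simp only [hadd]
        exact integral_add (hint f) (hint f')
      map_smul' := by
        intro c f
        simp only [hsmul, RingHom.id_apply]
        exact integral_smul c _ } 1 (by
    intro f
    rw [one_mul]
    change ‖∫ g, τ (tail D g) f ∂μ‖ ≤ ‖f‖
    refine (norm_integral_le_integral_norm _).trans ?_
    simp [h.norm])
  have hP : ∀ f, P f = ∫ g, τ (tail D g) f ∂μ := fun _ => rfl
  refine ⟨P, ?_, ?_, ?_⟩
  · intro f
    rw [hP]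
    refine (norm_integral_le_integral_norm _).trans ?_
    simp [h.norm]
  · intro f x y hxy
    apply hsep
    intro w
    rw [hP, hval, hval]
    have hx : ∀ g, x * tail D g = y * tail D ((y⁻¹ * x) * g) := by
      intro g
      rw [tail_mul, ← mul_assoc]
      congr 1
      funext i
      simp only [tail, Pi.mul_apply, Pi.inv_apply]
      split_ifs with h
      · rw [mul_one]; exact hxy i h
      · rw [mul_inv_cancel_left]
    simp only [hx]
    exact integral_mul_left_eq_self (μ := μ) (fun g => w (e f (y * tail D g))) (y⁻¹ * x)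
  · intro f hf
    apply h.inj
    ext x
    apply hsep
    intro w
    rw [hP, hval]
    have h1 : ∀ g, e f (x * tail D g) = e f x := by
      intro g
      apply hf
      intro i hi
      simp [tail, hi]
    simp [h1]

variable (e)

/-- The functions of the first `D` coordinates. -/
def ED (D : ℕ) : Submodule ℝ E where
  carrier := {f | Dep e D f}
  add_mem' := by
    intro f f' hf hf' x y hxy
    simp only [map_add, ContinuousMap.add_apply, hf x y hxy, hf' x y hxy]
  zero_mem' := by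
    intro x y _
    simp
  smul_mem' := by
    intro c f hf x y hxy
    simp only [map_smul, ContinuousMap.smul_apply, hf x y hxy]

theorem mem_ED {D : ℕ} {f : E} : f ∈ ED e D ↔ Dep e D f := Iff.rfl

/-- Evaluation on the finite cube. -/
def evalD (D : ℕ) : ED e D →ₗ[ℝ] ((Fin D → ℤˣ) → V) where
  toFun f x := e f (ext x)
  map_add' := by intro f f'; funext x; simp
  map_smul' := by intro c f; funext x; simp

theorem evalD_apply {D : ℕ} (f : ED e D) (x : Fin D → ℤˣ) : evalD e D f x = e f (ext x) := rfl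

theorem e_eq_evalD {D : ℕ} (f : ED e D) (x : ℕ → ℤˣ) : e f x = evalD e D f (res x) := by
  rw [evalD_apply]
  exact f.2 _ _ fun i hi => (ext_res x i hi).symm

variable {e}

theorem evalD_inj (h : Hom e τ B c) (D : ℕ) : Function.Injective (evalD e D) := by
  intro f f' hff
  apply Subtype.ext
  apply h.inj
  ext x
  rw [e_eq_evalD, e_eq_evalD, hff]

theorem char_eq (h : Hom e τ B c) {D : ℕ} (S : Finset (Fin D)) (v : V) (x : ℕ → ℤˣ) :
    e (c (S.map Fin.valEmbedding) v) x = walsh S (res x : Fin D → ℤˣ) • v := by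
  rw [h.char]
  exact congrArg (· • v) (walsh_map_ext S x)

theorem char_mem (h : Hom e τ B c) {D : ℕ} (S : Finset (Fin D)) (v : V) :
    c (S.map Fin.valEmbedding) v ∈ ED e D := by
  intro x y hxy
  rw [char_eq h, char_eq h]
  congr 2
  funext i
  exact hxy i i.2

theorem evalD_char (h : Hom e τ B c) {D : ℕ} (S : Finset (Fin D)) (v : V) :
    evalD e D ⟨c (S.map Fin.valEmbedding) v, char_mem h S v⟩ = fun x => walsh S x • v := by
  funext x
  rw [evalD_apply, char_eq h]
  congr 2
  funext i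
  exact ext_val x i

theorem evalD_surj (h : Hom e τ B c) {D : ℕ} : Function.Surjective (evalD e D) := by
  intro φ
  refine ⟨∑ S : Finset (Fin D), ⟨c (S.map Fin.valEmbedding) (wc S φ), char_mem h S _⟩, ?_⟩
  rw [map_sum]
  funext x
  rw [Finset.sum_apply]
  rw [← sum_walsh_smul_wc φ x]
  exact Finset.sum_congr rfl fun S _ => by rw [evalD_char h]

/-- The identification of `ED` with the functions on the finite cube. -/
noncomputable def eqD (h : Hom e τ B c) (D : ℕ) : ED e D ≃ₗ[ℝ] ((Fin D → ℤˣ) → V) :=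
  LinearEquiv.ofBijective (evalD e D) ⟨evalD_inj h D, evalD_surj h⟩

theorem eqD_apply (h : Hom e τ B c) {D : ℕ} (f : ED e D) (x : Fin D → ℤˣ) :
    eqD h D f x = e f (ext x) := rfl

theorem eqD_sup (h : Hom e τ B c) {D : ℕ} (f : ED e D) (x : Fin D → ℤˣ) :
    ‖eqD h D f x‖ ≤ ‖e‖ * ‖f‖ := by
  rw [eqD_apply]
  exact ((e f).norm_coe_le_norm _).trans (e.le_opNorm _)

theorem eqD_trans (h : Hom e τ B c) {D : ℕ} (f : ED e D) (g : Fin D → ℤˣ) :
    ‖(eqD h D).symm (fun x => eqD h D f (x * g))‖ ≤ ‖f‖ := by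
  have hmem : τ (ext g) f ∈ ED e D := by
    intro x y hxy
    rw [h.trans, h.trans]
    exact f.2 _ _ fun i hi => by simp only [Pi.mul_apply, hxy i hi]
  have h3 : (eqD h D).symm (fun x => eqD h D f (x * g)) = ⟨τ (ext g) f, hmem⟩ := by
    rw [LinearEquiv.symm_apply_eq]
    funext x
    rw [eqD_apply, eqD_apply]
    simp only [h.trans]
    congr 1
    funext i
    simp only [TK.ext, Pi.mul_apply]
    split_ifs <;> simp
  rw [h3]
  exact (h.norm _ _).le

theorem eqD_char (h : Hom e τ B c) {D : ℕ} (S : Finset (Fin D)) (v : V) :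
    ‖(eqD h D).symm (fun x => walsh S x • v)‖ ≤ B * ‖v‖ := by
  have h3 : (eqD h D).symm (fun x => walsh S x • v) =
      ⟨c (S.map Fin.valEmbedding) v, char_mem h S v⟩ := by
    rw [LinearEquiv.symm_apply_eq]
    exact (evalD_char h S v).symm
  rw [h3]
  exact h.bdd _ _

theorem ED_cotype {q C : ℝ} (hq : 0 < q) (hC : 0 ≤ C) (hE : CotypeWith q C E) (D : ℕ) :
    CotypeWith q C (ED e D) :=
  cotypeWith_of_embed hq hC hE (ED e D).subtype (fun _ => le_rfl) fun _ => le_rfl

theorem ED_dual_cotype [CompleteSpace E] (h : Hom e τ B c) {r C : ℝ} (hr : 0 < r) (hC : 0 ≤ C)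
    (hE : CotypeWith r C (E →L[ℝ] ℝ)) (D : ℕ) : CotypeWith r C (ED e D →L[ℝ] ℝ) := by
  obtain ⟨P, hP1, hP2, hP3⟩ := exists_proj h D
  let P' : E →L[ℝ] ED e D := P.codRestrict (ED e D) hP2
  have hP' : ∀ f, ‖P' f‖ ≤ ‖f‖ := hP1
  have hP'id : ∀ f : ED e D, P' f = f := fun f => Subtype.ext (hP3 f f.2)
  have hP'n : ‖P'‖ ≤ 1 := ContinuousLinearMap.opNorm_le_bound _ zero_le_one
    fun f => by rw [one_mul]; exact hP' f
  let j : (ED e D →L[ℝ] ℝ) →ₗ[ℝ] (E →L[ℝ] ℝ) :=
    { toFun := fun φ => φ.comp P'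
      map_add' := fun φ ψ => by ext f; simp
      map_smul' := fun c φ => by ext f; simp }
  refine cotypeWith_of_embed hr hC hE j ?_ ?_
  · intro φ
    refine ContinuousLinearMap.opNorm_le_bound _ (norm_nonneg _) fun f => ?_
    have h3 : φ f = (j φ) f := by
      change φ f = φ (P' f)
      rw [hP'id]
    rw [h3]
    exact (j φ).le_opNorm f
  · intro φ
    change ‖φ.comp P'‖ ≤ ‖φ‖
    refine (ContinuousLinearMap.opNorm_comp_le _ _).trans ?_
    calc ‖φ‖ * ‖P'‖ ≤ ‖φ‖ * 1 := mul_le_mul_of_nonneg_left hP'n (norm_nonneg φ)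
      _ = ‖φ‖ := mul_one _

/-- Extend a permutation of the first coordinates. -/
noncomputable def extPerm {D : ℕ} (σ : Equiv.Perm (Fin D)) : Equiv.Perm ℕ :=
  σ.viaEmbedding Fin.valEmbedding

/-- invariance under permutations of finitely many coordinates passes to the finite cubes -/
theorem eqD_perm (h : Hom e τ B c) {D : ℕ} (σ : Equiv.Perm (Fin D))
    (hσ : ∀ (s : Equiv.Perm ℕ) (f : E), (∃ N, ∀ i ≥ N, s i = i) →
      ∃ f' : E, ‖f'‖ ≤ ‖f‖ ∧ ∀ x, e f' x = e f (x ∘ s)) (f : ED e D) :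
    ‖(eqD h D).symm (fun x => eqD h D f (x ∘ σ))‖ ≤ ‖f‖ := by
  obtain ⟨f', hf', hx⟩ := hσ (extPerm σ) f ⟨D, fun i hi => by
    unfold extPerm
    rw [Equiv.Perm.viaEmbedding_apply_of_notMem]
    rintro ⟨j, rfl⟩
    exact absurd j.2 (not_lt.mpr hi)⟩
  have hval : ∀ i : Fin D, extPerm σ i = (σ i : ℕ) := by
    intro i
    exact Equiv.Perm.viaEmbedding_apply σ Fin.valEmbedding i
  have hmem : f' ∈ ED e D := by
    intro x y hxy
    rw [hx, hx]
    refine f.2 _ _ fun i hi => ?_
    simp only [Function.comp_apply]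
    have := hval ⟨i, hi⟩
    simp only at this
    rw [this]
    exact hxy _ (σ ⟨i, hi⟩).2
  have h3 : (eqD h D).symm (fun x => eqD h D f (x ∘ σ)) = ⟨f', hmem⟩ := by
    rw [LinearEquiv.symm_apply_eq]
    funext x
    rw [eqD_apply, eqD_apply]
    change _ = e f' (ext x)
    rw [hx]
    refine f.2 _ _ fun i hi => ?_
    have := hval ⟨i, hi⟩
    simp only at this
    simp only [Function.comp_apply, this, ext_val]
    simp [TK.ext, hi]
  rw [h3]
  exact hf'

end

end Vale.Agent.P111.TV
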